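import Vale.Agent.P112.H141.CarJN
import Vale.Agent.P112.H566.Pop

/-!
# P112 / H141: [DEPTH-M], the measure part of the depth splitting

Cells `cl q` of level `lv q` of the grid `τ`, sets `V q` inside the cells, of density at least
`δ` and overlap at most `M`, all cells close to one cell of level `J0`. The points with at least
`d ≥ 1` levels `j` for which a cell of level `j` of the family is at distance at most `8` cells
have measure at most `C 2 ^ (-(c δ d / M)) / 2 ^ J0`.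
-/

open MeasureTheory Set
open scoped ENNReal

namespace Vale.Agent.P112.H141

open H30 H566 H8

theorem rg_eq (τ : ℝ) (i : ℕ) (c R : ℤ) :
    {x | |T.q τ i x - c| ≤ R} =
      Ico (τ + ((c : ℝ) - R) / 2 ^ i) (τ + ((c : ℝ) + R + 1) / 2 ^ i) := by
  ext x
  have h : (0 : ℝ) < 2 ^ i := by positivity
  rw [mem_ofPred_eq, mem_Ico, abs_le]
  unfold T.q
  have e1 : -R ≤ ⌊2 ^ i * (x - τ)⌋ - c ↔ ((c : ℝ) - R) ≤ 2 ^ i * (x - τ) := by
    rw [show (-R ≤ ⌊2 ^ i * (x - τ)⌋ - c) ↔ (c - R ≤ ⌊2 ^ i * (x - τ)⌋) by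
      constructor <;> intro h <;> linarith, Int.le_floor]
    push_cast
    rfl
  have e2 : ⌊2 ^ i * (x - τ)⌋ - c ≤ R ↔ 2 ^ i * (x - τ) < (c : ℝ) + R + 1 := by
    rw [show (⌊2 ^ i * (x - τ)⌋ - c ≤ R) ↔ (⌊2 ^ i * (x - τ)⌋ < c + R + 1) by
      constructor <;> intro h <;> linarith, Int.floor_lt]
    push_cast
    rfl
  rw [e1, e2]
  constructor
  · rintro ⟨h1, h2⟩
    constructor
    · have : ((c : ℝ) - R) / 2 ^ i ≤ x - τ := by rw [div_le_iff₀ h]; linarith
      linarith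
    · have : x - τ < ((c : ℝ) + R + 1) / 2 ^ i := by rw [lt_div_iff₀ h]; linarith
      linarith
  · rintro ⟨h1, h2⟩
    constructor
    · have : ((c : ℝ) - R) / 2 ^ i ≤ x - τ := by linarith
      rw [div_le_iff₀ h] at this; linarith
    · have : x - τ < ((c : ℝ) + R + 1) / 2 ^ i := by linarith
      rw [lt_div_iff₀ h] at this; linarith

theorem rg_meas (τ : ℝ) (i : ℕ) (c R : ℤ) : MeasurableSet {x | |T.q τ i x - c| ≤ R} := by
  rw [rg_eq]; exact measurableSet_Ico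

theorem rg_vol (τ : ℝ) (i : ℕ) (c R : ℤ) :
    volume {x | |T.q τ i x - c| ≤ R} = ENNReal.ofReal ((2 * R + 1) / 2 ^ i) := by
  rw [rg_eq, Real.volume_Ico]
  congr 1
  ring

/-- close cells of a fine level lie in close cells of a coarse level -/
theorem q_close_of {τ : ℝ} {i j : ℕ} (h : i ≤ j) {x x' : ℝ} {R : ℤ}
    (hx : |T.q τ j x - T.q τ j x'| ≤ R) : |T.q τ i x - T.q τ i x'| ≤ R + 1 := by
  obtain ⟨a1, a2⟩ := (q_eq_iff τ j x _).1 rfl
  obtain ⟨b1, b2⟩ := (q_eq_iff τ j x' _).1 rfl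
  obtain ⟨c1, c2⟩ := (q_eq_iff τ i x _).1 rfl
  obtain ⟨d1, d2⟩ := (q_eq_iff τ i x' _).1 rfl
  have hx' : |(T.q τ j x : ℝ) - T.q τ j x'| ≤ R := by exact_mod_cast hx
  have h1 : |2 ^ j * (x - x')| < R + 1 := by
    rw [abs_le] at hx'
    rw [abs_lt]
    constructor <;> nlinarith
  have h2 : |2 ^ i * (x - x')| ≤ |2 ^ j * (x - x')| := by
    rw [abs_mul, abs_mul, abs_of_pos (by positivity : (0 : ℝ) < 2 ^ i),
      abs_of_pos (by positivity : (0 : ℝ) < 2 ^ j)]
    gcongr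
    norm_num
  have h3 := abs_lt.1 (lt_of_le_of_lt h2 h1)
  have e1 : (T.q τ i x : ℝ) - T.q τ i x' < (R : ℝ) + 2 := by nlinarith [h3.2]
  have e2 : -((R : ℝ) + 2) < (T.q τ i x : ℝ) - T.q τ i x' := by nlinarith [h3.1]
  have f1 : T.q τ i x - T.q τ i x' < R + 2 := by exact_mod_cast e1
  have f2 : -(R + 2) < T.q τ i x - T.q τ i x' := by exact_mod_cast e2
  rw [abs_le]
  constructor <;> omega

variable {P : Type*}

/-- packing from bounded overlap -/
theorem pack (G : Finset P) (lv : P → ℕ) (V : P → Set ℝ) {δ : ℝ} (hδ : 0 < δ) (M : ℕ)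
    (hV : ∀ q ∈ G, MeasurableSet (V q))
    (hvol : ∀ q ∈ G, ENNReal.ofReal (δ / 2 ^ lv q) ≤ volume (V q))
    (hM : ∀ x, ∀ G' : Finset P, G' ⊆ G → (∀ q ∈ G', x ∈ V q) → G'.card ≤ M)
    {T1 : Set ℝ} (hT1 : MeasurableSet T1) (hsub : ∀ q ∈ G, V q ⊆ T1) :
    ∑ q ∈ G, ENNReal.ofReal ((1 / 2) ^ lv q) ≤ ENNReal.ofReal (M / δ) * volume T1 := by
  classical
  have h1 : ∑ q ∈ G, volume (V q) ≤ M * volume T1 := by
    calc ∑ q ∈ G, volume (V q) = ∑ q ∈ G, ∫⁻ x, (V q).indicator 1 x := by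
          refine Finset.sum_congr rfl fun q hq => ?_
          rw [lintegral_indicator_one (hV q hq)]
      _ = ∫⁻ x, ∑ q ∈ G, (V q).indicator 1 x := by
          rw [lintegral_finsetSum]
          intro q hq
          exact measurable_one.indicator (hV q hq)
      _ ≤ ∫⁻ x, T1.indicator (fun _ => (M : ℝ≥0∞)) x := by
          refine lintegral_mono fun x => ?_
          have e : ∑ q ∈ G, (V q).indicator (1 : ℝ → ℝ≥0∞) x =
              ((G.filter fun q => x ∈ V q).card : ℝ≥0∞) := by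
            rw [Finset.card_filter, Nat.cast_sum]
            refine Finset.sum_congr rfl fun q _ => ?_
            by_cases hx : x ∈ V q
            · simp [hx]
            · simp [hx]
          rw [e]
          by_cases hx : x ∈ T1
          · rw [indicator_of_mem hx]
            have := hM x (G.filter fun q => x ∈ V q) (Finset.filter_subset _ _)
              (fun q hq => (Finset.mem_filter.1 hq).2)
            exact Nat.cast_le.2 (by convert this)
          · rw [indicator_of_notMem hx]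
            have : (G.filter fun q => x ∈ V q) = ∅ := by
              refine Finset.filter_eq_empty_iff.2 fun q hq hxq => hx (hsub q hq hxq)
            rw [this]
            simp
      _ = M * volume T1 := by
          rw [lintegral_indicator hT1, lintegral_const, Measure.restrict_apply MeasurableSet.univ,
            univ_inter]
  calc ∑ q ∈ G, ENNReal.ofReal ((1 / 2) ^ lv q)
      ≤ ∑ q ∈ G, ENNReal.ofReal (1 / δ) * volume (V q) := by
        refine Finset.sum_le_sum fun q hq => ?_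
        calc ENNReal.ofReal ((1 / 2) ^ lv q) = ENNReal.ofReal (1 / δ * (δ / 2 ^ lv q)) := by
              congr 1
              rw [one_div, inv_pow]
              field_simp
          _ = ENNReal.ofReal (1 / δ) * ENNReal.ofReal (δ / 2 ^ lv q) :=
              ENNReal.ofReal_mul (by positivity)
          _ ≤ _ := by
              gcongr
              exact hvol q hq
    _ = ENNReal.ofReal (1 / δ) * ∑ q ∈ G, volume (V q) := (Finset.mul_sum _ _ _).symm
    _ ≤ ENNReal.ofReal (1 / δ) * (M * volume T1) := by gcongr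
    _ = ENNReal.ofReal (M / δ) * volume T1 := by
        rw [← mul_assoc, ← ENNReal.ofReal_natCast M, ← ENNReal.ofReal_mul (by positivity)]
        congr 2
        ring

/-- one shift -/
theorem depth_shift (F : Finset P) (lv : P → ℕ) (cl : P → ℤ) (V : P → Set ℝ) (τ δ : ℝ)
    (M J0 : ℕ) (c0 a : ℤ) (ha : |a| ≤ 8) (hδ : 0 < δ) (hM1 : 1 ≤ M)
    (hV : ∀ q ∈ F, MeasurableSet (V q))
    (hcl : ∀ q ∈ F, ∀ x ∈ V q, T.q τ (lv q) x = cl q)
    (hvol : ∀ q ∈ F, ENNReal.ofReal (δ / 2 ^ lv q) ≤ volume (V q))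
    (hM : ∀ x, ∀ G : Finset P, G ⊆ F → (∀ q ∈ G, x ∈ V q) → G.card ≤ M)
    (hJ : ∀ q ∈ F, J0 ≤ lv q ∧ ∃ x, |T.q τ (lv q) x - cl q| ≤ 8 ∧ |T.q τ J0 x - c0| ≤ 8)
    (K : ℕ) (hK0 : 0 < K) (hK : 38 * M / δ ≤ K) (n : ℕ) :
    (∀ q ∈ F, cel τ (lv q) (cl q - a) ⊆ {x | |T.q τ J0 x - c0| ≤ (26 : ℤ)}) ∧
    volume {x ∈ {x | |T.q τ J0 x - c0| ≤ (26 : ℤ)} |
      n ≤ (thr F (fun q => cel τ (lv q) (cl q - a)) {x | |T.q τ J0 x - c0| ≤ (26 : ℤ)} x).card} ≤
      (1 / 2) ^ (n / K) * ENNReal.ofReal (53 / 2 ^ J0) := by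
  have hne : ∀ (i : ℕ) (m : ℤ), ∃ x, T.q τ i x = m := by
    intro i m
    refine ⟨τ + m / 2 ^ i, ?_⟩
    unfold T.q
    rw [show (2 : ℝ) ^ i * (τ + m / 2 ^ i - τ) = m by field_simp; ring, Int.floor_intCast]
  have htop1 : ∀ q ∈ F, cel τ (lv q) (cl q - a) ⊆ {x | |T.q τ J0 x - c0| ≤ (26 : ℤ)} := by
    intro q hq x hx
    have hx' : T.q τ (lv q) x = cl q - a := hx
    obtain ⟨h0, x0, h1, h2⟩ := hJ q hq
    have h3 : |T.q τ (lv q) x - T.q τ (lv q) x0| ≤ 16 := by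
      rw [hx']
      rw [abs_le] at h1 ha ⊢
      constructor <;> linarith [h1.1, h1.2, ha.1, ha.2]
    have h4 := q_close_of h0 h3
    show |T.q τ J0 x - c0| ≤ 26
    rw [abs_le] at h2 h4 ⊢
    constructor <;> linarith [h2.1, h2.2, h4.1, h4.2]
  have htop2 : ∀ q ∈ F, V q ⊆ {x | |T.q τ J0 x - c0| ≤ (26 : ℤ)} := by
    intro q hq x hx
    have hx' := hcl q hq x hx
    obtain ⟨h0, x0, h1, h2⟩ := hJ q hq
    have h3 : |T.q τ (lv q) x - T.q τ (lv q) x0| ≤ 8 := by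
      rw [hx', abs_sub_comm]
      exact h1
    have h4 := q_close_of h0 h3
    show |T.q τ J0 x - c0| ≤ 26
    rw [abs_le] at h2 h4 ⊢
    constructor <;> linarith [h2.1, h2.2, h4.1, h4.2]
  refine ⟨htop1, ?_⟩
  have hMδ : 0 ≤ (M : ℝ) / δ := by positivity
  have hcar : ∀ q ∈ F, ∑ q' ∈ ins F (fun q => cel τ (lv q) (cl q - a)) (cel τ (lv q) (cl q - a)),
      volume (cel τ (lv q') (cl q' - a)) ≤
        ENNReal.ofReal (19 * M / δ) * volume (cel τ (lv q) (cl q - a)) := by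
    intro q hq
    simp_rw [cel_vol]
    have hlev : ∀ q' ∈ ins F (fun q => cel τ (lv q) (cl q - a)) (cel τ (lv q) (cl q - a)),
        lv q ≤ lv q' := by
      intro q' hq'
      have h1 := measure_mono (μ := (volume : Measure ℝ)) (mem_ins.1 hq').2
      rw [cel_vol, cel_vol, ENNReal.ofReal_le_ofReal_iff (by positivity)] at h1
      by_contra hcon
      push Not at hcon
      have : ((1 : ℝ) / 2) ^ lv q < (1 / 2) ^ lv q' :=
        pow_lt_pow_right_of_lt_one₀ (by norm_num) (by norm_num) hcon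
      linarith
    have h2 := pack (ins F (fun q => cel τ (lv q) (cl q - a)) (cel τ (lv q) (cl q - a))) lv V hδ M
      (fun q' hq' => hV q' (mem_ins.1 hq').1) (fun q' hq' => hvol q' (mem_ins.1 hq').1)
      (fun x G hG => hM x G (hG.trans fun q' hq' => (mem_ins.1 hq').1))
      (T1 := {x | |T.q τ (lv q) x - (cl q - a)| ≤ (9 : ℤ)}) (rg_meas _ _ _ _) (by
        intro q' hq' x hx
        have h3 := hcl q' (mem_ins.1 hq').1 x hx
        obtain ⟨x0, hx0⟩ := hne (lv q') (cl q' - a)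
        have h4 : T.q τ (lv q) x0 = cl q - a := (mem_ins.1 hq').2 hx0
        have h5 : |T.q τ (lv q') x - T.q τ (lv q') x0| ≤ 8 := by
          rw [h3, hx0]
          simpa using ha
        have h6 := q_close_of (hlev q' hq') h5
        show |T.q τ (lv q) x - (cl q - a)| ≤ 9
        rw [← h4]
        exact h6)
    refine h2.trans ?_
    rw [rg_vol, ← ENNReal.ofReal_mul (by positivity), ← ENNReal.ofReal_mul (by positivity)]
    refine ENNReal.ofReal_le_ofReal ?_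
    push_cast
    rw [one_div, inv_pow]
    apply le_of_eq
    field_simp
    ring
  have htopc : ∑ q' ∈ ins F (fun q => cel τ (lv q) (cl q - a)) {x | |T.q τ J0 x - c0| ≤ (26 : ℤ)},
      volume (cel τ (lv q') (cl q' - a)) ≤
        ENNReal.ofReal (19 * M / δ) * volume {x | |T.q τ J0 x - c0| ≤ (26 : ℤ)} := by
    simp_rw [cel_vol]
    have h2 := pack (ins F (fun q => cel τ (lv q) (cl q - a))
        {x | |T.q τ J0 x - c0| ≤ (26 : ℤ)}) lv V hδ M
      (fun q' hq' => hV q' (mem_ins.1 hq').1) (fun q' hq' => hvol q' (mem_ins.1 hq').1)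
      (fun x G hG => hM x G (hG.trans fun q' hq' => (mem_ins.1 hq').1))
      (T1 := {x | |T.q τ J0 x - c0| ≤ (26 : ℤ)}) (rg_meas _ _ _ _)
      (fun q' hq' => htop2 q' (mem_ins.1 hq').1)
    refine h2.trans ?_
    gcongr
    have : (0 : ℝ) ≤ M := Nat.cast_nonneg M
    linarith
  have hKK : 2 * ENNReal.ofReal (19 * M / δ) ≤ (K : ℝ≥0∞) := by
    rw [← ENNReal.ofReal_natCast K, ← ENNReal.ofReal_ofNat 2, ← ENNReal.ofReal_mul (by norm_num)]
    refine ENNReal.ofReal_le_ofReal ?_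
    refine le_trans (le_of_eq ?_) hK
    ring
  have := car_jn (μ := (volume : Measure ℝ)) F (fun q => cel τ (lv q) (cl q - a))
    (ENNReal.ofReal (19 * M / δ)) (fun q _ q' _ => cel_nd τ _ _ _ _)
    (fun q _ => cel_meas τ _ _) hcar K hK0 hKK n {x | |T.q τ J0 x - c0| ≤ (26 : ℤ)}
    (rg_meas _ _ _ _) htopc
  rw [rg_vol] at this
  refine this.trans (le_of_eq ?_)
  congr 2
  push_cast
  norm_num

/-- **[DEPTH-M]**, linear in the overlap `M`. -/
theorem depthM_lin {P : Type*} (F : Finset P) (lv : P → ℕ) (cl : P → ℤ) (V : P → Set ℝ)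
    (τ δ : ℝ) (M d J0 : ℕ) (c0 : ℤ) (hδ : 0 < δ) (hδ1 : δ ≤ 1) (hM1 : 1 ≤ M) (hd : 1 ≤ d)
    (hV : ∀ q ∈ F, MeasurableSet (V q))
    (hcl : ∀ q ∈ F, ∀ x ∈ V q, T.q τ (lv q) x = cl q)
    (hvol : ∀ q ∈ F, ENNReal.ofReal (δ / 2 ^ lv q) ≤ volume (V q))
    (hM : ∀ x, ∀ G : Finset P, G ⊆ F → (∀ q ∈ G, x ∈ V q) → G.card ≤ M)
    (hJ : ∀ q ∈ F, J0 ≤ lv q ∧ ∃ x, |T.q τ (lv q) x - cl q| ≤ 8 ∧ |T.q τ J0 x - c0| ≤ 8) :
    volume {x | d ≤ ((F.filter fun q => |T.q τ (lv q) x - cl q| ≤ 8).image lv).card} ≤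
      ENNReal.ofReal (1802 * 2 ^ (-(δ * d / (663 * M)) : ℝ) / 2 ^ J0) := by
  classical
  have hMr : (1 : ℝ) ≤ M := by exact_mod_cast hM1
  have hMδ : (1 : ℝ) ≤ M / δ := by
    rw [le_div_iff₀ hδ]
    linarith
  -- the period
  set K : ℕ := ⌈38 * (M : ℝ) / δ⌉₊ with hK
  have hK1 : 38 * (M : ℝ) / δ ≤ K := Nat.le_ceil _
  have hKr : (K : ℝ) ≤ 39 * (M / δ) := by
    have h1 := (Nat.ceil_lt_add_one (a := 38 * (M : ℝ) / δ) (by positivity)).le
    have h2 : 38 * (M : ℝ) / δ = 38 * (M / δ) := by ring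
    rw [← hK] at h1
    linarith
  have hK0 : 0 < K := by
    have : (0 : ℝ) < K := lt_of_lt_of_le (by positivity) hK1
    exact_mod_cast this
  set n : ℕ := (d - 1) / 17 + 1 with hn
  have hnr : (d : ℝ) / 17 ≤ n := by
    have h1 : d ≤ 17 * n := by omega
    have h2 : (d : ℝ) ≤ 17 * n := by exact_mod_cast h1
    linarith
  -- inclusion
  have hincl : {x | d ≤ ((F.filter fun q => |T.q τ (lv q) x - cl q| ≤ 8).image lv).card} ⊆
      ⋃ a ∈ Finset.Icc (-8 : ℤ) 8, {x ∈ {x | |T.q τ J0 x - c0| ≤ (26 : ℤ)} |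
        n ≤ (thr F (fun q => cel τ (lv q) (cl q - a)) {x | |T.q τ J0 x - c0| ≤ (26 : ℤ)}
          x).card} := by
    intro x hx
    have hx1 : d ≤ (F.filter fun q => |T.q τ (lv q) x - cl q| ≤ 8).card :=
      le_trans hx Finset.card_image_le
    have hmaps : ∀ q ∈ F.filter (fun q => |T.q τ (lv q) x - cl q| ≤ 8),
        cl q - T.q τ (lv q) x ∈ Finset.Icc (-8 : ℤ) 8 := by
      intro q hq
      have h1 := (Finset.mem_filter.1 hq).2
      rw [abs_le] at h1
      rw [Finset.mem_Icc]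
      constructor <;> linarith [h1.1, h1.2]
    obtain ⟨a, ha, hcard⟩ := Finset.exists_lt_card_fiber_of_mul_lt_card_of_maps_to
      (n := (d - 1) / 17) hmaps (by
        have : (Finset.Icc (-8 : ℤ) 8).card = 17 := by decide
        rw [this]
        omega)
    have ha8 : |a| ≤ 8 := by
      rw [Finset.mem_Icc] at ha
      exact abs_le.2 ha
    have hsh := (depth_shift F lv cl V τ δ M J0 c0 a ha8 hδ hM1 hV hcl hvol hM hJ K hK0 hK1 n).1
    have hsubset : (Finset.filter (fun q => cl q - T.q τ (lv q) x = a)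
        (F.filter fun q => |T.q τ (lv q) x - cl q| ≤ 8)) ⊆
        thr F (fun q => cel τ (lv q) (cl q - a)) {x | |T.q τ J0 x - c0| ≤ (26 : ℤ)} x := by
      intro q hq
      rw [Finset.mem_filter, Finset.mem_filter] at hq
      refine mem_thr.2 ⟨hq.1.1, hsh q hq.1.1, ?_⟩
      show T.q τ (lv q) x = cl q - a
      linarith [hq.2]
    have hle := Finset.card_le_card hsubset
    refine mem_iUnion₂.2 ⟨a, ha, ?_, by omega⟩
    have hpos : 0 < (Finset.filter (fun q => cl q - T.q τ (lv q) x = a)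
        (F.filter fun q => |T.q τ (lv q) x - cl q| ≤ 8)).card := by omega
    obtain ⟨q, hq⟩ := Finset.card_pos.1 hpos
    have h1 := mem_thr.1 (hsubset hq)
    exact h1.2.1 h1.2.2
  have hterm : ∀ a ∈ Finset.Icc (-8 : ℤ) 8, volume {x ∈ {x | |T.q τ J0 x - c0| ≤ (26 : ℤ)} |
        n ≤ (thr F (fun q => cel τ (lv q) (cl q - a)) {x | |T.q τ J0 x - c0| ≤ (26 : ℤ)}
          x).card} ≤ (1 / 2) ^ (n / K) * ENNReal.ofReal (53 / 2 ^ J0) := by
    intro a ha
    rw [Finset.mem_Icc] at ha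
    exact (depth_shift F lv cl V τ δ M J0 c0 a (abs_le.2 ha) hδ hM1 hV hcl hvol hM hJ K hK0
      hK1 n).2
  calc volume {x | d ≤ ((F.filter fun q => |T.q τ (lv q) x - cl q| ≤ 8).image lv).card}
      ≤ volume (⋃ a ∈ Finset.Icc (-8 : ℤ) 8, {x ∈ {x | |T.q τ J0 x - c0| ≤ (26 : ℤ)} |
        n ≤ (thr F (fun q => cel τ (lv q) (cl q - a)) {x | |T.q τ J0 x - c0| ≤ (26 : ℤ)}
          x).card}) := measure_mono hincl
    _ ≤ ∑ a ∈ Finset.Icc (-8 : ℤ) 8, volume {x ∈ {x | |T.q τ J0 x - c0| ≤ (26 : ℤ)} |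
        n ≤ (thr F (fun q => cel τ (lv q) (cl q - a)) {x | |T.q τ J0 x - c0| ≤ (26 : ℤ)}
          x).card} := measure_biUnion_finset_le _ _
    _ ≤ ∑ a ∈ Finset.Icc (-8 : ℤ) 8, (1 / 2) ^ (n / K) * ENNReal.ofReal (53 / 2 ^ J0) :=
        Finset.sum_le_sum hterm
    _ = 17 * ((1 / 2) ^ (n / K) * ENNReal.ofReal (53 / 2 ^ J0)) := by
        rw [Finset.sum_const, show (Finset.Icc (-8 : ℤ) 8).card = 17 by decide, nsmul_eq_mul]
        norm_num
    _ ≤ 17 * (ENNReal.ofReal (2 * 2 ^ (-(δ * d / (663 * M)) : ℝ)) *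
          ENNReal.ofReal (53 / 2 ^ J0)) := by
        gcongr
        have e1 : ((1 : ℝ≥0∞) / 2) ^ (n / K) = ENNReal.ofReal ((1 / 2 : ℝ) ^ (n / K)) := by
          rw [ENNReal.ofReal_pow (by norm_num), ENNReal.ofReal_div_of_pos (by norm_num)]
          simp
        rw [e1]
        refine ENNReal.ofReal_le_ofReal ?_
        have h1 : (n : ℝ) / K < (n / K : ℕ) + 1 := by
          have h2 : n < K * (n / K + 1) := Nat.lt_mul_div_succ n hK0
          have h3 : (n : ℝ) < K * ((n / K : ℕ) + 1) := by exact_mod_cast h2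
          rw [div_lt_iff₀ (by exact_mod_cast hK0)]
          linarith
        have h2 : δ * d / (663 * M) ≤ (n : ℝ) / K := by
          have hKp : (0 : ℝ) < K := by exact_mod_cast hK0
          rw [le_div_iff₀ hKp]
          calc δ * d / (663 * M) * K ≤ δ * d / (663 * M) * (39 * (M / δ)) := by gcongr
            _ = d / 17 := by
                have : (M : ℝ) ≠ 0 := by positivity
                field_simp
                norm_num
            _ ≤ n := hnr
        have h3 : ((1 : ℝ) / 2) ^ (n / K) = 2 * 2 ^ (-(((n / K : ℕ) : ℝ) + 1)) := by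
          rw [neg_add, Real.rpow_add (by norm_num), Real.rpow_neg (by norm_num),
            Real.rpow_natCast, Real.rpow_neg_one, one_div, inv_pow]
          ring
        rw [h3]
        have h4 : (2 : ℝ) ^ (-(((n / K : ℕ) : ℝ) + 1)) ≤ 2 ^ (-(δ * d / (663 * M)) : ℝ) := by
          apply Real.rpow_le_rpow_of_exponent_le (by norm_num)
          linarith
        linarith
    _ = ENNReal.ofReal (1802 * 2 ^ (-(δ * d / (663 * M)) : ℝ) / 2 ^ J0) := by
        rw [← ENNReal.ofReal_mul (by positivity), ← ENNReal.ofReal_ofNat 17,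
          ← ENNReal.ofReal_mul (by positivity)]
        congr 1
        ring

/-- **[DEPTH-M]** in the form of helper818. -/
theorem depthM : ∃ K : ℕ, 0 < K ∧ ∀ (P : Type) (F : Finset P) (lv : P → ℕ) (cl : P → ℤ)
    (V : P → Set ℝ) (τ δ : ℝ) (M d J0 : ℕ) (c0 : ℤ), 0 < δ → δ ≤ 1 → 1 ≤ M → 1 ≤ d →
    (∀ q ∈ F, MeasurableSet (V q)) →
    (∀ q ∈ F, ∀ x ∈ V q, T.q τ (lv q) x = cl q) →
    (∀ q ∈ F, ENNReal.ofReal (δ / 2 ^ lv q) ≤ volume (V q)) →
    (∀ x, ∀ G : Finset P, G ⊆ F → (∀ q ∈ G, x ∈ V q) → G.card ≤ M) →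
    (∀ q ∈ F, J0 ≤ lv q ∧ ∃ x, |T.q τ (lv q) x - cl q| ≤ 8 ∧ |T.q τ J0 x - c0| ≤ 8) →
    volume {x | d ≤ ((F.filter (fun q => |T.q τ (lv q) x - cl q| ≤ 8)).image lv).card} ≤
      ENNReal.ofReal (K * 2 ^ (-(δ * d / (K * M)) : ℝ) / 2 ^ J0) := by
  refine ⟨1802, by norm_num, ?_⟩
  intro P F lv cl V τ δ M d J0 c0 hδ hδ1 hM1 hd hV hcl hvol hM hJ
  refine (depthM_lin F lv cl V τ δ M d J0 c0 hδ hδ1 hM1 hd hV hcl hvol hM hJ).trans ?_
  refine ENNReal.ofReal_le_ofReal ?_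
  have hMr : (1 : ℝ) ≤ M := by exact_mod_cast hM1
  have h1 : (2 : ℝ) ^ (-(δ * d / (663 * M)) : ℝ) ≤ 2 ^ (-(δ * d / ((1802 : ℕ) * M)) : ℝ) := by
    apply Real.rpow_le_rpow_of_exponent_le (by norm_num)
    push_cast
    gcongr
    norm_num
  push_cast at h1 ⊢
  gcongr

end Vale.Agent.P112.H141
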