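import Vale.Agent.P112.H30.JN

/-!
# P112 / H141: John-Nirenberg for Carleson families (laminar, with multiplicity)

`J q`, `q ∈ Q`, is a finite laminar family of measurable sets, with repetitions. If
`∑_{J q ⊆ T} μ (J q) ≤ Λ μ T` for `T = J q'` and for the top `T`, then the set of the points of `T`
lying in at least `n` members inside `T` has measure at most `2 ^ (-(n / K)) μ T`, `K ≥ 2 Λ`.
-/

open MeasureTheory Set
open scoped ENNReal

namespace Vale.Agent.P112.H141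

open H30

variable {X κ : Type*}

open Classical in
/-- the members inside `T` through `x` -/
noncomputable def thr (Q : Finset κ) (J : κ → Set X) (T : Set X) (x : X) : Finset κ :=
  Q.filter fun q => J q ⊆ T ∧ x ∈ J q

theorem mem_thr {Q : Finset κ} {J : κ → Set X} {T : Set X} {x : X} {q : κ} :
    q ∈ thr Q J T x ↔ q ∈ Q ∧ J q ⊆ T ∧ x ∈ J q := by
  classical
  simp [thr]

open Classical in
/-- the members inside `T` -/
noncomputable def ins (Q : Finset κ) (J : κ → Set X) (T : Set X) : Finset κ :=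
  Q.filter fun q => J q ⊆ T

theorem mem_ins {Q : Finset κ} {J : κ → Set X} {T : Set X} {q : κ} :
    q ∈ ins Q J T ↔ q ∈ Q ∧ J q ⊆ T := by
  classical
  simp [ins]

/-- a finite nonempty family of pairwise nested sets, indexed, has a smallest member -/
theorem exists_min_idx (S : Finset κ) (J : κ → Set X) (hne : S.Nonempty)
    (hS : ∀ q ∈ S, ∀ q' ∈ S, J q ⊆ J q' ∨ J q' ⊆ J q) : ∃ q ∈ S, ∀ q' ∈ S, J q ⊆ J q' := by
  classical
  obtain ⟨m, hm, hmin⟩ := exists_min_chain (S.image J) (hne.image J) (by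
    intro A hA B hB
    obtain ⟨a, ha, rfl⟩ := Finset.mem_image.1 hA
    obtain ⟨b, hb, rfl⟩ := Finset.mem_image.1 hB
    exact hS a ha b hb)
  obtain ⟨a, ha, rfl⟩ := Finset.mem_image.1 hm
  exact ⟨a, ha, fun q' hq' => hmin _ (Finset.mem_image_of_mem J hq')⟩

/-- **John-Nirenberg for a laminar Carleson family.** -/
theorem car_jn {_ : MeasurableSpace X} {μ : Measure X} (Q : Finset κ) (J : κ → Set X) (Λ : ℝ≥0∞)
    (hlam : ∀ q ∈ Q, ∀ q' ∈ Q, Nd (J q) (J q'))
    (hmeas : ∀ q ∈ Q, MeasurableSet (J q))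
    (hcar : ∀ q ∈ Q, ∑ q' ∈ ins Q J (J q), μ (J q') ≤ Λ * μ (J q))
    (K : ℕ) (hK0 : 0 < K) (hK : 2 * Λ ≤ K) :
    ∀ (n : ℕ) (T : Set X), MeasurableSet T → (∑ q' ∈ ins Q J T, μ (J q') ≤ Λ * μ T) →
      μ {x ∈ T | n ≤ (thr Q J T x).card} ≤ (1 / 2) ^ (n / K) * μ T := by
  classical
  intro n
  induction n using Nat.strong_induction_on with
  | _ n ih =>
  intro T hT hTc
  rcases lt_or_ge n K with hn | hn
  · rw [Nat.div_eq_of_lt hn, pow_zero, one_mul]
    exact measure_mono fun x hx => hx.1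
  -- the stopping family
  set S : Finset κ := (ins Q J T).filter
    (fun q => (J q).Nonempty ∧ K ≤ ((ins Q J T).filter fun q' => J q ⊆ J q').card) with hS
  have hSmem : ∀ q, q ∈ S ↔ (q ∈ Q ∧ J q ⊆ T) ∧ (J q).Nonempty ∧
      K ≤ ((ins Q J T).filter fun q' => J q ⊆ J q').card := by
    intro q
    simp [hS, mem_ins]
  obtain ⟨M, hMS, hcov, hMdis, hMmax⟩ := exists_maximal_cover (S.image J) (by
    intro A hA B hB
    obtain ⟨a, ha, rfl⟩ := Finset.mem_image.1 hA
    obtain ⟨b, hb, rfl⟩ := Finset.mem_image.1 hB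
    exact hlam a ((hSmem a).1 ha).1.1 b ((hSmem b).1 hb).1.1)
  have hMq : ∀ A ∈ M, ∃ q ∈ S, J q = A := fun A hA => Finset.mem_image.1 (hMS hA)
  have hMT : ∀ A ∈ M, A ⊆ T := by
    intro A hA
    obtain ⟨q, hq, rfl⟩ := hMq A hA
    exact ((hSmem q).1 hq).1.2
  have hMmeas : ∀ A ∈ M, MeasurableSet A := by
    intro A hA
    obtain ⟨q, hq, rfl⟩ := hMq A hA
    exact hmeas q ((hSmem q).1 hq).1.1
  -- the total measure of the stopping sets
  have hmass : ∑ A ∈ M, μ A ≤ (1 / 2) * μ T := by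
    have h1 : (K : ℝ≥0∞) * ∑ A ∈ M, μ A ≤ ∑ q ∈ ins Q J T, μ (J q) := by
      calc (K : ℝ≥0∞) * ∑ A ∈ M, μ A = ∑ A ∈ M, (K : ℝ≥0∞) * μ A := Finset.mul_sum _ _ _
        _ ≤ ∑ A ∈ M, ∑ q ∈ ins Q J T, μ (J q ∩ A) := by
            refine Finset.sum_le_sum fun A hA => ?_
            obtain ⟨q, hq, rfl⟩ := hMq A hA
            have h2 := ((hSmem q).1 hq).2.2
            calc (K : ℝ≥0∞) * μ (J q)
                ≤ (((ins Q J T).filter fun q' => J q ⊆ J q').card : ℝ≥0∞) * μ (J q) := by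
                  gcongr
              _ = ∑ q' ∈ (ins Q J T).filter fun q' => J q ⊆ J q', μ (J q) := by
                  rw [Finset.sum_const, nsmul_eq_mul]
              _ = ∑ q' ∈ (ins Q J T).filter fun q' => J q ⊆ J q', μ (J q' ∩ J q) := by
                  refine Finset.sum_congr rfl fun q' hq' => ?_
                  rw [inter_eq_self_of_subset_right (Finset.mem_filter.1 hq').2]
              _ ≤ ∑ q' ∈ ins Q J T, μ (J q' ∩ J q) :=
                  Finset.sum_le_sum_of_subset (Finset.filter_subset _ _)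
        _ = ∑ q ∈ ins Q J T, ∑ A ∈ M, μ (J q ∩ A) := Finset.sum_comm
        _ ≤ ∑ q ∈ ins Q J T, μ (J q) := by
            refine Finset.sum_le_sum fun q hq => ?_
            rw [← measure_biUnion_finset]
            · refine measure_mono ?_
              exact iUnion₂_subset fun A _ => inter_subset_left
            · intro A hA B hB hAB
              exact (hMdis A hA B hB hAB).mono inter_subset_right inter_subset_right
            · intro A hA
              exact (hmeas q (mem_ins.1 hq).1).inter (hMmeas A hA)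
    have h2 : (K : ℝ≥0∞) * ∑ A ∈ M, μ A ≤ Λ * μ T := h1.trans hTc
    have hKne : (K : ℝ≥0∞) ≠ 0 := by exact_mod_cast hK0.ne'
    have h3 : 2 * ((K : ℝ≥0∞) * ∑ A ∈ M, μ A) ≤ (K : ℝ≥0∞) * μ T := by
      calc 2 * ((K : ℝ≥0∞) * ∑ A ∈ M, μ A) ≤ 2 * (Λ * μ T) := by gcongr
        _ = (2 * Λ) * μ T := by ring
        _ ≤ K * μ T := by gcongr
    have h4 : (K : ℝ≥0∞) * (2 * ∑ A ∈ M, μ A) ≤ (K : ℝ≥0∞) * μ T := by
      calc (K : ℝ≥0∞) * (2 * ∑ A ∈ M, μ A) = 2 * ((K : ℝ≥0∞) * ∑ A ∈ M, μ A) := by ring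
        _ ≤ _ := h3
    have h5 : 2 * ∑ A ∈ M, μ A ≤ μ T :=
      (ENNReal.mul_le_mul_iff_right hKne (ENNReal.natCast_ne_top K)).1 h4
    rw [one_div, ← ENNReal.div_eq_inv_mul]
    rw [ENNReal.le_div_iff_mul_le (Or.inl two_ne_zero) (Or.inl ENNReal.ofNat_ne_top), mul_comm]
    exact h5
  -- inclusion
  have hincl : {x ∈ T | n ≤ (thr Q J T x).card} ⊆
      ⋃ A ∈ M, {x ∈ A | n - K ≤ (thr Q J A x).card} := by
    rintro x ⟨hxT, hx⟩
    have hnest : ∀ q ∈ thr Q J T x, ∀ q' ∈ thr Q J T x, J q ⊆ J q' ∨ J q' ⊆ J q := by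
      intro q hq q' hq'
      rcases hlam q (mem_thr.1 hq).1 q' (mem_thr.1 hq').1 with h | h | h
      · exact Or.inl h
      · exact Or.inr h
      · exact absurd h (not_disjoint_iff.2 ⟨x, (mem_thr.1 hq).2.2, (mem_thr.1 hq').2.2⟩)
    have key : ∀ R ⊆ thr Q J T x, K ≤ R.card → ∃ q ∈ R, q ∈ S ∧ ∀ q' ∈ R, J q ⊆ J q' := by
      intro R hR hRc
      have hne : R.Nonempty := Finset.card_pos.1 (lt_of_lt_of_le hK0 hRc)
      obtain ⟨q, hq, hqm⟩ := exists_min_idx R J hne
        (fun a ha b hb => hnest a (hR ha) b (hR hb))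
      refine ⟨q, hq, ?_, hqm⟩
      have h1 := mem_thr.1 (hR hq)
      refine (hSmem q).2 ⟨⟨h1.1, h1.2.1⟩, ⟨x, h1.2.2⟩, hRc.trans (Finset.card_le_card ?_)⟩
      intro q' hq'
      have h2 := mem_thr.1 (hR hq')
      exact Finset.mem_filter.2 ⟨mem_ins.2 ⟨h2.1, h2.2.1⟩, hqm q' hq'⟩
    obtain ⟨q0, hq0, hq0S, -⟩ := key _ (Finset.Subset.refl _) (hn.trans hx)
    obtain ⟨A, hA, hqA⟩ := hcov (J q0) (Finset.mem_image_of_mem J hq0S)
    have hxA : x ∈ A := hqA (mem_thr.1 hq0).2.2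
    refine mem_iUnion₂.2 ⟨A, hA, hxA, ?_⟩
    -- the members not inside `A`
    have hlt : ((thr Q J T x).filter fun q => ¬ J q ⊆ A).card < K := by
      by_contra hcon
      push Not at hcon
      obtain ⟨q1, hq1, hq1S, -⟩ := key _ (Finset.filter_subset _ _) hcon
      rw [Finset.mem_filter] at hq1
      obtain ⟨a, haS, rfl⟩ := hMq A hA
      have hnd := hlam a ((hSmem a).1 haS).1.1 q1 (mem_thr.1 hq1.1).1
      have hsub : J a ⊆ J q1 := by
        rcases hnd with h | h | h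
        · exact h
        · exact absurd h hq1.2
        · exact absurd h (not_disjoint_iff.2 ⟨x, hxA, (mem_thr.1 hq1.1).2.2⟩)
      have := hMmax (J a) hA (J q1) (Finset.mem_image_of_mem J hq1S) hsub
      exact hq1.2 this.le
    have hsplit : (thr Q J T x).card =
        ((thr Q J T x).filter fun q => J q ⊆ A).card +
          ((thr Q J T x).filter fun q => ¬ J q ⊆ A).card :=
      (Finset.card_filter_add_card_filter_not _).symm
    have hle : ((thr Q J T x).filter fun q => J q ⊆ A).card ≤ (thr Q J A x).card := by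
      refine Finset.card_le_card fun q hq => ?_
      rw [Finset.mem_filter] at hq
      have h1 := mem_thr.1 hq.1
      exact mem_thr.2 ⟨h1.1, hq.2, h1.2.2⟩
    omega
  calc μ {x ∈ T | n ≤ (thr Q J T x).card}
      ≤ μ (⋃ A ∈ M, {x ∈ A | n - K ≤ (thr Q J A x).card}) := measure_mono hincl
    _ ≤ ∑ A ∈ M, μ {x ∈ A | n - K ≤ (thr Q J A x).card} := measure_biUnion_finset_le _ _
    _ ≤ ∑ A ∈ M, (1 / 2) ^ ((n - K) / K) * μ A := by
        refine Finset.sum_le_sum fun A hA => ?_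
        obtain ⟨q, hq, rfl⟩ := hMq A hA
        exact ih (n - K) (by omega) (J q) (hMmeas _ hA) (hcar q ((hSmem q).1 hq).1.1)
    _ = (1 / 2) ^ ((n - K) / K) * ∑ A ∈ M, μ A := (Finset.mul_sum _ _ _).symm
    _ ≤ (1 / 2) ^ ((n - K) / K) * ((1 / 2) * μ T) := by gcongr
    _ = (1 / 2) ^ (n / K) * μ T := by
        rw [← mul_assoc, ← pow_succ]
        congr 2
        rw [Nat.div_eq_sub_div hK0 hn]

end Vale.Agent.P112.H141
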